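import Mathlib.LinearAlgebra.UnitaryGroup
import Mathlib.GroupTheory.Coset.Card
import Mathlib.Analysis.Complex.Basic
import Mathlib.Tactic.Group
import Mathlib.Tactic.LinearCombination

open Matrix

namespace Vale.Agent.P241.H512

/-! ### induced monomial representations -/

section Ind

variable {V : Type*} [Group V] (A : Subgroup V) (l : A →* ℂˣ)

/-- the extension of a character by zero -/
noncomputable def ext0 (g : V) : ℂ := by
  classical exact if h : g ∈ A then ((l ⟨g, h⟩ : ℂˣ) : ℂ) else 0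

theorem ext0_mem {g : V} (h : g ∈ A) : ext0 A l g = ((l ⟨g, h⟩ : ℂˣ) : ℂ) := by
  rw [ext0, dif_pos h]

theorem ext0_not_mem {g : V} (h : g ∉ A) : ext0 A l g = 0 := by
  rw [ext0, dif_neg h]

theorem ext0_one : ext0 A l 1 = 1 := by
  rw [ext0_mem A l A.one_mem]
  have : (⟨1, A.one_mem⟩ : A) = 1 := rfl
  rw [this, map_one]
  rfl

theorem ext0_mul_left {a g : V} (h : a ∈ A) : ext0 A l (a * g) = ext0 A l a * ext0 A l g := by
  by_cases hg : g ∈ A
  · rw [ext0_mem A l (A.mul_mem h hg), ext0_mem A l h, ext0_mem A l hg, ← Units.val_mul, ← map_mul]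
    rfl
  · rw [ext0_not_mem A l hg, ext0_not_mem A l, mul_zero]
    intro h'
    exact hg ((A.mul_mem_cancel_left h).1 h')

theorem ext0_mul_right {a g : V} (h : a ∈ A) : ext0 A l (g * a) = ext0 A l g * ext0 A l a := by
  by_cases hg : g ∈ A
  · rw [ext0_mem A l (A.mul_mem hg h), ext0_mem A l h, ext0_mem A l hg, ← Units.val_mul, ← map_mul]
    rfl
  · rw [ext0_not_mem A l hg, ext0_not_mem A l, zero_mul]
    intro h'
    exact hg ((A.mul_mem_cancel_right h).1 h')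

theorem ext0_inv (hl : ∀ a : A, ‖((l a : ℂˣ) : ℂ)‖ = 1) (g : V) :
    ext0 A l g⁻¹ = star (ext0 A l g) := by
  by_cases hg : g ∈ A
  · rw [ext0_mem A l (A.inv_mem hg), ext0_mem A l hg]
    have h1 : (⟨g⁻¹, A.inv_mem hg⟩ : A) = (⟨g, hg⟩ : A)⁻¹ := rfl
    rw [h1, map_inv, Units.val_inv_eq_inv_val, Complex.inv_def, Complex.normSq_eq_norm_sq,
      hl ⟨g, hg⟩]
    simp
  · rw [ext0_not_mem A l hg, ext0_not_mem A l, star_zero]
    intro h'
    exact hg (by simpa using A.inv_mem h')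

variable [Fintype (V ⧸ A)]

/-- the key identity -/
theorem sum_ext0 (g h : V) :
    ∑ j : V ⧸ A, ext0 A l (g * j.out) * ext0 A l (j.out⁻¹ * h) = ext0 A l (g * h) := by
  classical
  rw [Finset.sum_eq_single (QuotientGroup.mk h : V ⧸ A)]
  · set s : V := (QuotientGroup.mk h : V ⧸ A).out with hs
    have h1 : s⁻¹ * h ∈ A := by
      rw [← QuotientGroup.eq, hs, QuotientGroup.out_eq']
    rw [← ext0_mul_right A l h1]
    congr 1
    group
  · intro j _ hj
    rw [ext0_not_mem A l (g := j.out⁻¹ * h), mul_zero]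
    intro h'
    apply hj
    rw [← QuotientGroup.eq, QuotientGroup.out_eq'] at h'
    exact h'
  · intro h'
    exact absurd (Finset.mem_univ _) h'

omit [Fintype (V ⧸ A)] in
theorem out_inv_mul_out (i j : V ⧸ A) : i.out⁻¹ * j.out ∈ A ↔ i = j := by
  rw [← QuotientGroup.eq, QuotientGroup.out_eq', QuotientGroup.out_eq']

variable (hl : ∀ a : A, ‖((l a : ℂˣ) : ℂ)‖ = 1)

/-- the matrices of the induced representation -/
noncomputable def indM (v : V) : Matrix (V ⧸ A) (V ⧸ A) ℂ :=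
  Matrix.of fun i j => ext0 A l (i.out⁻¹ * v * j.out)

theorem indM_mul (v w : V) : indM A l (v * w) = indM A l v * indM A l w := by
  ext i k
  simp only [indM, Matrix.mul_apply, Matrix.of_apply]
  have h := sum_ext0 A l (i.out⁻¹ * v) (w * k.out)
  simp only [mul_assoc] at h ⊢
  exact h.symm

omit [Fintype (V ⧸ A)] in
theorem indM_one [DecidableEq (V ⧸ A)] : indM A l 1 = 1 := by
  ext i j
  simp only [indM, Matrix.of_apply, mul_one, Matrix.one_apply]
  split_ifs with h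
  · subst h
    rw [inv_mul_cancel, ext0_one]
  · rw [ext0_not_mem]
    rwa [out_inv_mul_out]

omit [Fintype (V ⧸ A)] in
include hl in
theorem indM_star (v : V) : star (indM A l v) = indM A l v⁻¹ := by
  ext i j
  simp only [indM, Matrix.star_apply, Matrix.of_apply]
  rw [← ext0_inv A l hl]
  congr 1
  group

/-- the induced representation -/
noncomputable def ind [DecidableEq (V ⧸ A)] : V →* Matrix.unitaryGroup (V ⧸ A) ℂ where
  toFun v := ⟨indM A l v, by
    rw [Matrix.mem_unitaryGroup_iff, indM_star A l hl, ← indM_mul, mul_inv_cancel, indM_one]⟩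
  map_one' := Subtype.ext (indM_one A l)
  map_mul' v w := Subtype.ext (indM_mul A l v w)

/-- the intertwiner -/
noncomputable def twM (c : V →* ℂˣ) (y : V) : Matrix (V ⧸ A) (V ⧸ A) ℂ :=
  Matrix.of fun i j => ((c i.out : ℂˣ) : ℂ) * ext0 A l (y⁻¹ * i.out⁻¹ * j.out)

theorem twM_mul (c : V →* ℂˣ) (y : V) (hA : A.Normal)
    (h : ∀ a : V, a ∈ A → ext0 A l (y⁻¹ * a * y) = ((c a : ℂˣ) : ℂ) * ext0 A l a) (v : V) :
    twM A l c y * indM A l v = ((c v : ℂˣ) : ℂ) • (indM A l v * twM A l c y) := by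
  classical
  ext i k
  simp only [twM, indM, Matrix.mul_apply, Matrix.smul_apply, Matrix.of_apply, smul_eq_mul]
  have h1 : ∑ j : V ⧸ A, ((c i.out : ℂˣ) : ℂ) * ext0 A l (y⁻¹ * i.out⁻¹ * j.out) *
      ext0 A l (j.out⁻¹ * v * k.out) =
      ((c i.out : ℂˣ) : ℂ) * ext0 A l (y⁻¹ * i.out⁻¹ * v * k.out) := by
    have h2 := sum_ext0 A l (y⁻¹ * i.out⁻¹) (v * k.out)
    simp only [mul_assoc] at h2 ⊢
    rw [← Finset.mul_sum, h2]
  rw [h1]
  -- the other side: one term
  set j : V ⧸ A := QuotientGroup.mk (v⁻¹ * i.out) with hj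
  have hjA : i.out⁻¹ * v * j.out ∈ A := by
    have h3 : (v⁻¹ * i.out)⁻¹ * j.out ∈ A := by
      rw [← QuotientGroup.eq, QuotientGroup.out_eq']
    have h4 : i.out⁻¹ * v * j.out = (v⁻¹ * i.out)⁻¹ * j.out := by group
    rw [h4]
    exact h3
  rw [Finset.sum_eq_single j]
  · set a : V := i.out⁻¹ * v * j.out with ha
    have h5 : y⁻¹ * j.out⁻¹ * k.out = (y⁻¹ * a⁻¹ * y) * (y⁻¹ * i.out⁻¹ * v * k.out) := by
      rw [ha]; group
    have hyA : y⁻¹ * a⁻¹ * y ∈ A := by
      have := hA.conj_mem a⁻¹ (A.inv_mem hjA) y⁻¹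
      simpa using this
    rw [h5, ext0_mul_left A l hyA, h a⁻¹ (A.inv_mem hjA)]
    have h6 : ((c i.out : ℂˣ) : ℂ) = ((c v : ℂˣ) : ℂ) * ((c j.out : ℂˣ) : ℂ) *
        ((c a⁻¹ : ℂˣ) : ℂ) := by
      rw [← Units.val_mul, ← map_mul, ← Units.val_mul, ← map_mul]
      congr 2
      rw [ha]; group
    have h7 : ext0 A l a * ext0 A l a⁻¹ = 1 := by
      rw [← ext0_mul_left A l hjA, mul_inv_cancel, ext0_one]
    rw [h6]
    linear_combination (-((c v : ℂˣ) : ℂ) * ((c j.out : ℂˣ) : ℂ) * ((c a⁻¹ : ℂˣ) : ℂ) *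
      ext0 A l (y⁻¹ * i.out⁻¹ * v * k.out)) * h7
  · intro j' _ hj'
    rw [ext0_not_mem A l (g := i.out⁻¹ * v * j'.out), zero_mul]
    intro h'
    apply hj'
    rw [← out_inv_mul_out A j' j]
    have h8 := A.mul_mem (A.inv_mem h') hjA
    have h9 : (i.out⁻¹ * v * j'.out)⁻¹ * (i.out⁻¹ * v * j.out) = j'.out⁻¹ * j.out := by group
    rwa [h9] at h8
  · intro h'
    exact absurd (Finset.mem_univ _) h'

include hl in
theorem twM_unitary [DecidableEq (V ⧸ A)] (c : V →* ℂˣ) (hc : ∀ v, ‖((c v : ℂˣ) : ℂ)‖ = 1)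
    (y : V) (hA : A.Normal) : twM A l c y ∈ Matrix.unitaryGroup (V ⧸ A) ℂ := by
  rw [Matrix.mem_unitaryGroup_iff]
  ext i k
  simp only [twM, Matrix.mul_apply, Matrix.star_apply, Matrix.of_apply, star_mul']
  have h1 : ∀ j : V ⧸ A, ((c i.out : ℂˣ) : ℂ) * ext0 A l (y⁻¹ * i.out⁻¹ * j.out) *
      (star ((c k.out : ℂˣ) : ℂ) * star (ext0 A l (y⁻¹ * k.out⁻¹ * j.out))) =
      (((c i.out : ℂˣ) : ℂ) * star ((c k.out : ℂˣ) : ℂ)) *
      (ext0 A l ((y⁻¹ * i.out⁻¹) * j.out) * ext0 A l (j.out⁻¹ * (k.out * y))) := by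
    intro j
    rw [← ext0_inv A l hl]
    have : (y⁻¹ * k.out⁻¹ * j.out)⁻¹ = j.out⁻¹ * (k.out * y) := by group
    rw [this]
    ring
  rw [Finset.sum_congr rfl fun j _ => h1 j, ← Finset.mul_sum, sum_ext0, Matrix.one_apply]
  split_ifs with h
  · subst h
    have h2 : y⁻¹ * i.out⁻¹ * (i.out * y) = 1 := by group
    rw [h2, ext0_one, mul_one, Complex.star_def, Complex.mul_conj, Complex.normSq_eq_norm_sq,
      hc]
    simp
  · rw [ext0_not_mem A l (g := _), mul_zero]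
    intro h'
    apply h
    rw [← out_inv_mul_out A i k]
    have h3 := hA.conj_mem _ h' y
    have h4 : y * (y⁻¹ * i.out⁻¹ * (k.out * y)) * y⁻¹ = i.out⁻¹ * k.out := by group
    rwa [h4] at h3

end Ind

end Vale.Agent.P241.H512
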