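import Vale.Agent.P241.H512.NonAb
import Mathlib.GroupTheory.FiniteAbelian.Duality
import Mathlib.RingTheory.RootsOfUnity.AlgebraicallyClosed
import Mathlib.RingTheory.RootsOfUnity.Complex
import Mathlib.FieldTheory.IsAlgClosed.Basic
import Mathlib.Analysis.Complex.Polynomial.Basic
import Mathlib.GroupTheory.PGroup

namespace Vale.Agent.P241.H512

set_option linter.style.haveILetI false

universe u

/-- the commutator -/
def kap {V : Type u} [Group V] (a y : V) : V := a⁻¹ * y⁻¹ * a * y

/-- The group theoretic input for nonabelian `p`-groups: a unitary representation of dimension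
`|I|` and a group `X` of more than `|I|` characters of exponent `p` with `ρ ⊗ χ ≅ ρ`. Moreover
some commutator acts as a scalar `ζ ≠ 1`. -/
def HasTwist (p : ℕ) (V : Type u) [Group V] : Prop :=
  ∃ (I : Type u) (_ : Fintype I) (_ : DecidableEq I) (ρ : V →* Matrix.unitaryGroup I ℂ)
    (X : Subgroup (V →* ℂˣ)), 0 < Fintype.card I ∧ Fintype.card I < Nat.card X ∧
    (∀ c ∈ X, ∀ v, c v ^ p = 1) ∧
    (∀ c ∈ X, ∃ U ∈ Matrix.unitaryGroup I ℂ, ∀ v,
      U * (ρ v : Matrix I I ℂ) * star U = ((c v : ℂˣ) : ℂ) • (ρ v : Matrix I I ℂ)) ∧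
    ∃ (a y : V) (ζ : ℂ), ζ ≠ 1 ∧ (ρ (kap a y) : Matrix I I ℂ) = ζ • (1 : Matrix I I ℂ)

theorem norm_eq_one_of_finite {A : Type*} [Group A] [Finite A] (l : A →* ℂˣ) (a : A) :
    ‖((l a : ℂˣ) : ℂ)‖ = 1 := by
  have h1 : a ^ Nat.card A = 1 := pow_card_eq_one'
  have h2 : ((l a : ℂˣ) : ℂ) ^ Nat.card A = 1 := by
    rw [← Units.val_pow_eq_pow_val, ← map_pow, h1, map_one]
    rfl
  exact Complex.norm_eq_one_of_pow_eq_one h2 Nat.card_pos.ne'

section Base

variable {V : Type u} [Group V]

variable {Z : Subgroup V}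

theorem kap_mul_left (hZ : Z ≤ Subgroup.center V) (h : ∀ a y : V, kap a y ∈ Z) (a b y : V) :
    kap (a * b) y = kap a y * kap b y := by
  have h1 := Subgroup.mem_center_iff.1 (hZ (h a y)) b⁻¹
  have h2 : kap (a * b) y = b⁻¹ * kap a y * (y⁻¹ * b * y) := by
    simp only [kap]; group
  rw [h2, h1]
  simp only [kap]; group

theorem kap_mul_right (hZ : Z ≤ Subgroup.center V) (h : ∀ a y : V, kap a y ∈ Z) (a y w : V) :
    kap a (y * w) = kap a y * kap a w := by
  have h1 := Subgroup.mem_center_iff.1 (hZ (h a y)) (a⁻¹ * w⁻¹ * a)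
  have h2 : kap a (y * w) = a⁻¹ * w⁻¹ * a * kap a y * w := by
    simp only [kap]; group
  rw [h2, h1]
  simp only [kap]; group

theorem kap_center (y : V) {c : V} (hc : c ∈ Subgroup.center V) : kap c y = 1 := by
  have h1 := Subgroup.mem_center_iff.1 hc y⁻¹
  have h2 : kap c y = c⁻¹ * (y⁻¹ * c) * y := by simp only [kap]; group
  rw [h2, h1]; group

theorem kap_eq_one_iff {a y : V} : kap a y = 1 ↔ a * y = y * a := by
  have h2 : kap a y = (y * a)⁻¹ * (a * y) := by simp only [kap]; group
  rw [h2, inv_mul_eq_one, eq_comm]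

theorem conj_eq_mul_kap (a y : V) : y⁻¹ * a * y = a * kap a y := by
  simp only [kap]; group

/-- the homomorphism `a ↦ kap a y` -/
def kapL (hZ : Z ≤ Subgroup.center V) (h : ∀ a y : V, kap a y ∈ Z) (y : V) : V →* Z where
  toFun a := ⟨kap a y, h a y⟩
  map_one' := Subtype.ext (by simp [kap])
  map_mul' a b := Subtype.ext (kap_mul_left hZ h a b y)

/-- the homomorphism `y ↦ kap a y` -/
def kapR (hZ : Z ≤ Subgroup.center V) (h : ∀ a y : V, kap a y ∈ Z) (a : V) : V →* Z where
  toFun y := ⟨kap a y, h a y⟩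
  map_one' := Subtype.ext (by simp [kap])
  map_mul' y w := Subtype.ext (kap_mul_right hZ h a y w)

/-- the subgroup generated by the centre and `x` -/
def adj (x : V) : Subgroup V where
  carrier := {a | ∃ c ∈ Subgroup.center V, ∃ n : ℤ, a = c * x ^ n}
  one_mem' := ⟨1, Subgroup.one_mem _, 0, by simp⟩
  mul_mem' := by
    rintro a b ⟨c, hc, n, rfl⟩ ⟨d, hd, m, rfl⟩
    refine ⟨c * d, Subgroup.mul_mem _ hc hd, n + m, ?_⟩
    have h1 := Subgroup.mem_center_iff.1 hd (x ^ n)
    calc c * x ^ n * (d * x ^ m) = c * (x ^ n * d) * x ^ m := by group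
      _ = c * d * x ^ (n + m) := by rw [h1, zpow_add]; group
  inv_mem' := by
    rintro a ⟨c, hc, n, rfl⟩
    refine ⟨c⁻¹, Subgroup.inv_mem _ hc, -n, ?_⟩
    have h1 := Subgroup.mem_center_iff.1 (Subgroup.inv_mem _ hc) (x ^ (-n))
    rw [mul_inv_rev, ← zpow_neg, h1]

theorem center_le_adj (x : V) : Subgroup.center V ≤ adj x := fun c hc => ⟨c, hc, 0, by simp⟩

theorem mem_adj (x : V) : x ∈ adj x := ⟨1, Subgroup.one_mem _, 1, by simp⟩

theorem adj_comm (x : V) (a b : adj x) : a * b = b * a := by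
  obtain ⟨a, c, hc, n, rfl⟩ := a
  obtain ⟨b, d, hd, m, rfl⟩ := b
  apply Subtype.ext
  change c * x ^ n * (d * x ^ m) = d * x ^ m * (c * x ^ n)
  have h1 := Subgroup.mem_center_iff.1 hd (x ^ n)
  have h2 := Subgroup.mem_center_iff.1 hc (d * x ^ m)
  calc c * x ^ n * (d * x ^ m) = c * (x ^ n * d) * x ^ m := by group
    _ = c * (d * x ^ m * x ^ n) := by rw [h1, mul_assoc, mul_assoc, mul_assoc, ← zpow_add,
        ← zpow_add, add_comm]
    _ = d * x ^ m * c * x ^ n := by rw [h2]; group
    _ = d * x ^ m * (c * x ^ n) := by group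

end Base

/-- Characters of a finite commutative subgroup separate points. -/
theorem exists_char {V : Type u} [Group V] [Finite V] (A : Subgroup V)
    (hA : ∀ a b : A, a * b = b * a) {z : A} (hz : z ≠ 1) : ∃ l : A →* ℂˣ, l z ≠ 1 := by
  letI : CommGroup A := { (inferInstance : Group A) with mul_comm := hA }
  haveI : NeZero (Monoid.exponent A) := ⟨Monoid.exponent_ne_zero_of_finite⟩
  haveI : NeZero ((Monoid.exponent A : ℕ) : ℂ) := ⟨by
    exact_mod_cast Monoid.exponent_ne_zero_of_finite⟩
  exact CommGroup.exists_apply_ne_one_of_hasEnoughRootsOfUnity A ℂ hz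

/-- The characters which are trivial on a normal subgroup with commutative quotient. -/
theorem card_chars {V : Type u} [Group V] [Finite V] (Z : Subgroup V) [Z.Normal]
    (hc : ∀ a b : V ⧸ Z, a * b = b * a) :
    ∃ X : Subgroup (V →* ℂˣ), (∀ c, c ∈ X ↔ ∀ z ∈ Z, c z = 1) ∧ Nat.card X = Z.index := by
  letI : CommGroup (V ⧸ Z) := { (inferInstance : Group (V ⧸ Z)) with mul_comm := hc }
  haveI : NeZero ((Monoid.exponent (V ⧸ Z) : ℕ) : ℂ) := ⟨by
    exact_mod_cast Monoid.exponent_ne_zero_of_finite⟩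
  let X : Subgroup (V →* ℂˣ) :=
    { carrier := {c | ∀ z ∈ Z, c z = 1}
      one_mem' := fun z _ => rfl
      mul_mem' := fun {a b} ha hb z hz => by
        rw [MonoidHom.mul_apply, ha z hz, hb z hz, one_mul]
      inv_mem' := fun {a} ha z hz => by
        rw [MonoidHom.inv_apply, ha z hz, inv_one] }
  refine ⟨X, fun c => Iff.rfl, ?_⟩
  rw [Subgroup.index, ← CommGroup.card_monoidHom_of_hasEnoughRootsOfUnity (V ⧸ Z) ℂ]
  refine Nat.card_congr ⟨fun c => QuotientGroup.lift Z c.1 (fun z hz => c.2 z hz),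
    fun d => ⟨d.comp (QuotientGroup.mk' Z), fun z hz => ?_⟩, fun c => ?_, fun d => ?_⟩
  · rw [MonoidHom.comp_apply, QuotientGroup.mk'_apply, (QuotientGroup.eq_one_iff z).2 hz, map_one]
  · apply Subtype.ext
    ext v
    rfl
  · apply MonoidHom.ext
    intro q
    induction q using QuotientGroup.induction_on with
    | H v => rfl

/-- The case in which all commutators are in a central subgroup of order `p`. -/
theorem hasTwist_of_kap {p : ℕ} [Fact p.Prime] {V : Type u} [Group V] [Finite V] {z : V}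
    (hz : z ∈ Subgroup.center V) (hp : orderOf z = p)
    (h : ∀ a y : V, kap a y ∈ Subgroup.zpowers z) {x w : V} (hx : x * w ≠ w * x) :
    HasTwist p V := by
  classical
  have hpp : p.Prime := Fact.out
  have hZ : Subgroup.zpowers z ≤ Subgroup.center V := (Subgroup.zpowers_le).2 hz
  have hkc : ∀ a y : V, kap a y ∈ Subgroup.center V := fun a y => hZ (h a y)
  set A : Subgroup V := adj x with hA
  have hCA : Subgroup.center V ≤ A := center_le_adj x
  have hAn : A.Normal := by
    constructor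
    intro a ha g
    have h1 : g * a * g⁻¹ = a * kap a g⁻¹ := by
      rw [← conj_eq_mul_kap, inv_inv]
    rw [h1]
    exact A.mul_mem ha (hCA (hkc _ _))
  have hzA : z ∈ A := hCA hz
  have hz1 : (⟨z, hzA⟩ : A) ≠ 1 := by
    intro h1
    have h2 : z = 1 := congrArg Subtype.val h1
    rw [h2, orderOf_one] at hp
    exact hpp.one_lt.ne hp
  obtain ⟨l, hl1⟩ := exists_char A (adj_comm x) hz1
  have hln := norm_eq_one_of_finite l
  -- powers
  have hzp : ∀ v ∈ Subgroup.zpowers z, v ^ p = 1 := by
    rintro v ⟨n, rfl⟩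
    change (z ^ n) ^ p = 1
    rw [← zpow_natCast, ← zpow_mul, mul_comm, zpow_mul, zpow_natCast, ← hp, pow_orderOf_eq_one,
      one_zpow]
  -- `λ` is injective on `⟨z⟩`
  have hinj : ∀ (v : V) (hv : v ∈ A), v ∈ Subgroup.zpowers z → l ⟨v, hv⟩ = 1 → v = 1 := by
    rintro v hv ⟨n, rfl⟩ h1
    change z ^ n = 1
    have h2 : (⟨z ^ n, hv⟩ : A) = (⟨z, hzA⟩ : A) ^ n := rfl
    have h3 : l ⟨z, hzA⟩ ^ n = 1 := by
      rw [← map_zpow, ← h2]; exact h1
    have h4 : l ⟨z, hzA⟩ ^ p = 1 := by
      rw [← map_pow]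
      have : (⟨z, hzA⟩ : A) ^ p = 1 := Subtype.ext (by
        change z ^ p = 1
        rw [← hp, pow_orderOf_eq_one])
      rw [this, map_one]
    have h5 : orderOf (l ⟨z, hzA⟩) = p := orderOf_eq_prime h4 hl1
    have h6 : (p : ℤ) ∣ n := by
      rw [← h5]
      exact orderOf_dvd_iff_zpow_eq_one.2 h3
    obtain ⟨m, rfl⟩ := h6
    rw [zpow_mul, zpow_natCast, ← hp, pow_orderOf_eq_one, one_zpow]
  -- the center
  haveI : (Subgroup.center V).Normal := inferInstance
  have hcq : ∀ a b : V ⧸ Subgroup.center V, a * b = b * a := by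
    intro a b
    induction a using QuotientGroup.induction_on with
    | H a =>
      induction b using QuotientGroup.induction_on with
      | H b =>
        rw [← QuotientGroup.mk_mul, ← QuotientGroup.mk_mul, QuotientGroup.eq]
        have : (a * b)⁻¹ * (b * a) = kap b a := by simp only [kap]; group
        rw [this]
        exact hkc _ _
  obtain ⟨X, hX, hcard⟩ := card_chars (Subgroup.center V) hcq
  have hxp : ∀ v : V, v ^ p ∈ Subgroup.center V := by
    intro v
    rw [Subgroup.mem_center_iff]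
    intro y
    have h1 : kap (v ^ p) y = 1 := by
      have h2 := map_pow (kapL hZ h y) v p
      have h3 := congrArg Subtype.val h2
      change kap (v ^ p) y = (kap v y) ^ p at h3
      rw [h3, hzp _ (h v y)]
    rw [kap_eq_one_iff] at h1
    exact h1.symm
  haveI : Fintype (V ⧸ A) := Fintype.ofFinite _
  have hlt : Fintype.card (V ⧸ A) < Nat.card X := by
    rw [hcard, ← Nat.card_eq_fintype_card]
    change A.index < _
    apply Subgroup.index_strictAnti
    refine lt_of_le_of_ne hCA ?_
    intro h1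
    have h2 : x ∈ Subgroup.center V := by rw [h1]; exact mem_adj x
    exact hx (Subgroup.mem_center_iff.1 h2 w).symm
  have hXp : ∀ c ∈ X, ∀ v, c v ^ p = 1 := by
    intro c hc v
    rw [← map_pow]
    exact (hX c).1 hc _ (hxp v)
  refine ⟨V ⧸ A, inferInstance, inferInstance, ind A l hln, X, ?_, hlt, hXp, ?_,
    x, w, ext0 A l (kap x w), ?_, ?_⟩
  · exact Fintype.card_pos_iff.2 ⟨QuotientGroup.mk 1⟩
  rotate_left
  · intro h1
    rw [ext0_mem A l (hCA (hkc x w)), Units.val_eq_one] at h1
    exact hx (kap_eq_one_iff.1 (hinj _ (hCA (hkc x w)) (h x w) h1))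
  · change indM A l (kap x w) = _
    ext i j
    simp only [indM, Matrix.of_apply, Matrix.smul_apply, Matrix.one_apply, smul_eq_mul]
    have h1 := Subgroup.mem_center_iff.1 (hkc x w) i.out⁻¹
    rw [h1, mul_assoc, ext0_mul_left A l (hCA (hkc x w))]
    congr 1
    split_ifs with h2
    · subst h2
      rw [inv_mul_cancel, ext0_one]
    · rw [ext0_not_mem]
      rwa [out_inv_mul_out]
  intro c hc
  -- the values `λ (κ (x, y))` are all `p`-th roots of unity
  let φ : V →* ℂˣ := l.comp ((Subgroup.inclusion (hZ.trans hCA)).comp (kapR hZ h x))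
  have hφ : ∀ y, φ y = l ⟨kap x y, hCA (hkc x y)⟩ := fun y => rfl
  have hφp : ∀ y, φ y ^ p = 1 := by
    intro y
    rw [hφ, ← map_pow]
    have : (⟨kap x y, hCA (hkc x y)⟩ : A) ^ p = 1 := Subtype.ext (hzp _ (h x y))
    rw [this, map_one]
  have hrange : φ.range = rootsOfUnity p ℂ := by
    haveI : NeZero p := ⟨hpp.ne_zero⟩
    have hle : φ.range ≤ rootsOfUnity p ℂ := by
      rintro _ ⟨y, rfl⟩
      rw [mem_rootsOfUnity]
      exact hφp y
    have hcr : Nat.card (rootsOfUnity p ℂ) = p := Complex.card_rootsOfUnity p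
    haveI : Finite (rootsOfUnity p ℂ) := by
      apply Nat.finite_of_card_ne_zero
      rw [hcr]; exact hpp.ne_zero
    have hdvd : Nat.card φ.range ∣ p := by
      have := Subgroup.card_dvd_of_le hle
      rwa [hcr] at this
    apply Subgroup.eq_of_le_of_card_ge hle
    rcases (Nat.dvd_prime hpp).1 hdvd with h1 | h1
    · exfalso
      have h2 : φ.range = ⊥ := Subgroup.card_eq_one.1 h1
      have h3 : φ w = 1 := by
        have : φ w ∈ φ.range := ⟨w, rfl⟩
        rw [h2, Subgroup.mem_bot] at this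
        exact this
      have h4 := hinj _ (hCA (hkc x w)) (h x w) h3
      rw [kap_eq_one_iff] at h4
      exact hx h4
    · rw [hcr, h1]
  have hcx : c x ∈ φ.range := by
    rw [hrange, mem_rootsOfUnity]
    exact hXp c hc x
  obtain ⟨y, hy⟩ := hcx
  have hcn : ∀ v, ‖((c v : ℂˣ) : ℂ)‖ = 1 := fun v => norm_eq_one_of_finite c v
  have key : ∀ a : V, a ∈ A → ext0 A l (y⁻¹ * a * y) = ((c a : ℂˣ) : ℂ) * ext0 A l a := by
    intro a ha
    rw [conj_eq_mul_kap, ext0_mul_right A l (hCA (hkc a y)), mul_comm]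
    congr 1
    rw [ext0_mem A l (hCA (hkc a y))]
    congr 1
    obtain ⟨d, hd, n, rfl⟩ := ha
    let ψ : V →* ℂˣ := l.comp ((Subgroup.inclusion (hZ.trans hCA)).comp (kapL hZ h y))
    have h1 : ψ (d * x ^ n) = c (d * x ^ n) := by
      rw [map_mul, map_mul, map_zpow, map_zpow]
      have h2 : ψ d = 1 := by
        change l ⟨kap d y, _⟩ = 1
        have : (⟨kap d y, hCA (hkc d y)⟩ : A) = 1 := Subtype.ext (kap_center y hd)
        rw [this, map_one]
      have h3 : ψ x = c x := hy
      rw [h2, h3, (hX c).1 hc d hd]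
    exact h1
  refine ⟨twM A l c y, twM_unitary A l hln c hcn y hAn, fun v => ?_⟩
  have h1 := twM_mul A l c y hAn key v
  change twM A l c y * indM A l v * star (twM A l c y) = ((c v : ℂˣ) : ℂ) • indM A l v
  have h2 := Matrix.mem_unitaryGroup_iff.1 (twM_unitary A l hln c hcn y hAn)
  rw [h1, Matrix.smul_mul, Matrix.mul_assoc, h2, Matrix.mul_one]

/-- pull back along a quotient map -/
theorem HasTwist.of_quotient {p : ℕ} {V : Type u} [Group V] (K : Subgroup V) [K.Normal]
    (h : HasTwist p (V ⧸ K)) : HasTwist p V := by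
  obtain ⟨I, _, _, ρ, X, h0, h1, h2, h3, a, y, ζ, hζ, h5⟩ := h
  let f : (V ⧸ K →* ℂˣ) →* (V →* ℂˣ) := MonoidHom.compHom' (QuotientGroup.mk' K)
  have hf : Function.Injective f := by
    intro a b hab
    apply MonoidHom.ext
    intro q
    induction q using QuotientGroup.induction_on with
    | H v => exact DFunLike.congr_fun hab v
  induction a using QuotientGroup.induction_on with
  | H a =>
  induction y using QuotientGroup.induction_on with
  | H y =>
  refine ⟨I, inferInstance, inferInstance, ρ.comp (QuotientGroup.mk' K), X.map f, h0, ?_, ?_, ?_,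
    a, y, ζ, hζ, h5⟩
  · rw [Nat.card_congr (X.equivMapOfInjective f hf).toEquiv.symm]
    exact h1
  · rintro _ ⟨c, hc, rfl⟩ v
    exact h2 c hc _
  · rintro _ ⟨c, hc, rfl⟩
    obtain ⟨U, hU, h4⟩ := h3 c hc
    exact ⟨U, hU, fun v => h4 _⟩

/-- **Nonabelian `p`-groups.** -/
theorem hasTwist (p : ℕ) [Fact p.Prime] (V : Type u) [Group V] [Finite V] (hV : IsPGroup p V)
    {x w : V} (hx : x * w ≠ w * x) : HasTwist p V := by
  classical
  suffices H : ∀ (n : ℕ) (V : Type u) [Group V] [Finite V], Nat.card V ≤ n → IsPGroup p V →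
      ∀ x w : V, x * w ≠ w * x → HasTwist p V from H _ V le_rfl hV x w hx
  intro n
  induction n with
  | zero =>
    intro V _ _ hn
    exact absurd hn (by have : 0 < Nat.card V := Nat.card_pos; omega)
  | succ n ih =>
    intro V _ _ hn hV x w hx
    by_cases hK : ∃ K : Subgroup V, K.Normal ∧ K ≠ ⊥ ∧ ∃ a b : V, kap a b ∉ K
    · obtain ⟨K, hKn, hK0, a, b, hab⟩ := hK
      haveI := hKn
      refine HasTwist.of_quotient K (ih (V ⧸ K) ?_ (hV.to_quotient K)
        (QuotientGroup.mk a) (QuotientGroup.mk b) ?_)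
      · have h1 : Nat.card V = Nat.card (V ⧸ K) * Nat.card K := Subgroup.card_eq_card_quotient_mul_card_subgroup K
        have h2 : 1 < Nat.card K := by
          have h3 : Nat.card K ≠ 1 := fun h => hK0 (Subgroup.card_eq_one.1 h)
          have h4 : 0 < Nat.card K := Nat.card_pos
          omega
        have h3 : 0 < Nat.card (V ⧸ K) := Nat.card_pos
        nlinarith
      · intro h
        apply hab
        rw [← QuotientGroup.mk_mul, ← QuotientGroup.mk_mul, eq_comm, QuotientGroup.eq] at h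
        have h1 : kap a b = (b * a)⁻¹ * (a * b) := by simp only [kap]; group
        rw [h1]
        exact h
    · push Not at hK
      haveI : Nontrivial V := ⟨x, w, fun h => hx (by rw [h])⟩
      haveI := hV.center_nontrivial
      have hdvd : p ∣ Nat.card (Subgroup.center V) := by
        rcases (hV.to_subgroup (Subgroup.center V)).card_eq_or_dvd with h | h
        · exact absurd h (Finite.one_lt_card (α := Subgroup.center V)).ne'
        · exact h
      obtain ⟨z, hz⟩ := exists_prime_orderOf_dvd_card' p hdvd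
      have hz' : orderOf (z : V) = p := by rw [Subgroup.orderOf_coe, hz]
      have hzp : Subgroup.zpowers (z : V) ≤ Subgroup.center V := Subgroup.zpowers_le.2 z.2
      have hn : (Subgroup.zpowers (z : V)).Normal := by
        constructor
        intro a ha g
        have h1 := Subgroup.mem_center_iff.1 (hzp ha) g
        rw [h1, mul_inv_cancel_right]
        exact ha
      have hne : Subgroup.zpowers (z : V) ≠ ⊥ := by
        rw [Ne, Subgroup.zpowers_eq_bot]
        intro h
        rw [h, orderOf_one] at hz'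
        exact (Fact.out : p.Prime).one_lt.ne hz'
      exact hasTwist_of_kap z.2 hz' (hK _ hn hne) hx

/-- A representation of `V` such that some commutator acts as a scalar `ζ ≠ 1` has no stable
line. -/
theorem no_stable_line {V : Type u} [Group V] {I : Type u} [Fintype I] [DecidableEq I]
    (ρ : V →* Matrix.unitaryGroup I ℂ) {a y : V} {ζ : ℂ} (hζ : ζ ≠ 1)
    (h : (ρ (kap a y) : Matrix I I ℂ) = ζ • (1 : Matrix I I ℂ)) (v : I → ℂ) (hv : v ≠ 0) :
    ∃ g : V, ∀ c : ℂ, (ρ g : Matrix I I ℂ).mulVec v ≠ c • v := by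
  by_contra hcon
  push Not at hcon
  obtain ⟨c, hc⟩ := hcon a
  obtain ⟨d, hd⟩ := hcon y
  have h0 : ∀ (g : V) (u : I → ℂ), (ρ g : Matrix I I ℂ).mulVec u = 0 → u = 0 := by
    intro g u hu
    have h1 : (ρ g⁻¹ : Matrix I I ℂ) * (ρ g : Matrix I I ℂ) = 1 := by
      rw [← Submonoid.coe_mul, ← map_mul, inv_mul_cancel, map_one]
      rfl
    have h2 := congrArg ((ρ g⁻¹ : Matrix I I ℂ).mulVec) hu
    rwa [Matrix.mulVec_mulVec, h1, Matrix.one_mulVec, Matrix.mulVec_zero] at h2
  have h1 : a * y = y * a * kap a y := by simp only [kap]; group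
  have h2 : (ρ (a * y) : Matrix I I ℂ).mulVec v = (d * c) • v := by
    rw [map_mul, Submonoid.coe_mul, ← Matrix.mulVec_mulVec, hd, Matrix.mulVec_smul, hc, smul_smul]
  have h3 : (ρ (a * y) : Matrix I I ℂ).mulVec v = (ζ * (c * d)) • v := by
    rw [h1, map_mul, map_mul, Submonoid.coe_mul, Submonoid.coe_mul, h, ← Matrix.mulVec_mulVec,
      Matrix.smul_mulVec, Matrix.one_mulVec, Matrix.mulVec_smul, ← Matrix.mulVec_mulVec, hc,
      Matrix.mulVec_smul, hd, smul_smul, smul_smul, mul_assoc]
  have h4 : (ζ * (c * d) - d * c) • v = 0 := by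
    rw [sub_smul, ← h2, ← h3, sub_self]
  rcases smul_eq_zero.1 h4 with h5 | h5
  · have h6 : (ζ - 1) * (c * d) = 0 := by linear_combination h5
    rcases mul_eq_zero.1 h6 with h7 | h7
    · exact hζ (by linear_combination h7)
    rcases mul_eq_zero.1 h7 with h8 | h8
    · rw [h8, zero_smul] at hc
      exact hv (h0 a v hc)
    · rw [h8, zero_smul] at hd
      exact hv (h0 y v hd)
  · exact hv h5

/-- A finite nonabelian `p`-group has a unitary representation without stable line. -/
theorem exists_no_stable_line (p : ℕ) [Fact p.Prime] (V : Type u) [Group V] [Finite V]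
    (hV : IsPGroup p V) {x w : V} (hx : x * w ≠ w * x) :
    ∃ (d : ℕ) (U : V →* Matrix.unitaryGroup (Fin d) ℂ), 0 < d ∧
      ∀ y : Fin d → ℂ, y ≠ 0 → ∃ v : V, ∀ c : ℂ,
        (U v : Matrix (Fin d) (Fin d) ℂ).mulVec y ≠ c • y := by
  obtain ⟨I, _, _, ρ, X, h0, -, -, -, a, y, ζ, hζ, h5⟩ := hasTwist p V hV hx
  let e : I ≃ Fin (Fintype.card I) := Fintype.equivFin I
  let f : Matrix.unitaryGroup I ℂ →* Matrix.unitaryGroup (Fin (Fintype.card I)) ℂ :=
    { toFun := fun M => ⟨Matrix.reindex e e M.1, by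
        have h1 := Matrix.mem_unitaryGroup_iff.1 M.2
        rw [Matrix.mem_unitaryGroup_iff, Matrix.reindex_apply, Matrix.star_eq_conjTranspose,
          Matrix.conjTranspose_submatrix, Matrix.submatrix_mul_equiv,
          ← Matrix.star_eq_conjTranspose, h1, Matrix.submatrix_one_equiv]⟩
      map_one' := Subtype.ext (by
        change Matrix.reindex e e (1 : Matrix I I ℂ) = 1
        rw [Matrix.reindex_apply, Matrix.submatrix_one_equiv])
      map_mul' := fun M N => Subtype.ext (by
        change Matrix.reindex e e (M.1 * N.1) = Matrix.reindex e e M.1 * Matrix.reindex e e N.1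
        rw [Matrix.reindex_apply, Matrix.reindex_apply, Matrix.reindex_apply,
          Matrix.submatrix_mul_equiv]) }
  refine ⟨Fintype.card I, f.comp ρ, h0, fun v hv => ?_⟩
  have hv' : v ∘ e ≠ 0 := by
    intro h
    apply hv
    funext i
    have := congrFun h (e.symm i)
    simpa using this
  obtain ⟨g, hg⟩ := no_stable_line ρ hζ h5 (v ∘ e) hv'
  refine ⟨g, fun c hc => hg c ?_⟩
  have h1 : (Matrix.reindex e e (ρ g : Matrix I I ℂ)).mulVec v = c • v := hc
  funext i
  have h2 := congrFun h1 (e i)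
  rw [Matrix.reindex_apply, Matrix.submatrix_mulVec_equiv] at h2
  simpa using h2

end Vale.Agent.P241.H512
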